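import Mathlib

set_option autoImplicit false

/-!
P090, third encoding: the Lipschitz-free space and the bounded approximation property, with no
instance and no norm defined by us.
-/

namespace Vale.Agent.P090Norm

/-- The normed space `X` with `δ : M → X`, `x ↦ δ_x`, is the Lipschitz-free space of the pointed
metric space `(M, o)` as in the problem file: the closed linear span of the `δ_x`, with the norm of
`Lip₀(M)*`. That is,

* for all finitely supported real coefficients `a`, the norm of `∑ a_x δ_x` is the norm of the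
  functional `f ↦ ∑ a_x f(x)` in `Lip₀(M)*`, namely the supremum of `|∑ a_x f(x)|` over all
  `f : M → ℝ` with `f(o) = 0` and Lipschitz constant at most `1`;
* the linear span of the `δ_x` is dense in `X` (`X` is assumed complete in the result). -/
def IsLipschitzFree (M : Type) [MetricSpace M] (o : M) (X : Type) [NormedAddCommGroup X]
    [NormedSpace ℝ X] (δ : M → X) : Prop :=
  (∀ a : M →₀ ℝ,
    IsLUB {r : ℝ | ∃ f : M → ℝ, f o = 0 ∧ (∀ x y : M, |f x - f y| ≤ dist x y) ∧
        r = |a.sum fun x c => c * f x|}
      ‖a.sum fun x c => c • δ x‖) ∧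
  Dense (Submodule.span ℝ (Set.range δ) : Set X)

/-- The bounded approximation property: for some finite `lam ≥ 1`, for every norm-compact `C ⊆ X`
and every `ε > 0` there is a bounded finite-rank linear operator `T : X → X` with `‖T‖ ≤ lam` and
`‖T u - u‖ < ε` for all `u ∈ C`. -/
def BAP (X : Type) [NormedAddCommGroup X] [NormedSpace ℝ X] : Prop :=
  ∃ lam : ℝ, 1 ≤ lam ∧ ∀ C : Set X, IsCompact C → ∀ ε : ℝ, 0 < ε →
    ∃ T : X →L[ℝ] X, FiniteDimensional ℝ (LinearMap.range T.toLinearMap) ∧ ‖T‖ ≤ lam ∧
      ∀ u ∈ C, ‖T u - u‖ < ε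

end Vale.Agent.P090Norm
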