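import Mathlib
import Vale.Agent.Lib.P090Norm.Defs
import Vale.Agent.Lib.P090H22.Main

set_option autoImplicit false

/-!
The closed span of the evaluations in the dual of `Lip₀(M)` satisfies `IsLipschitzFree`.
-/

namespace Vale.Agent.P090Norm

open P090H22 (Lip0 evalAt lipFreeSubmodule LipFree del pair)

variable {M : Type} [MetricSpace M] {o : M}

theorem pair_sum (a : M →₀ ℝ) (f : Lip0 M o) :
    pair (a.sum fun x c => c • del o x) f = a.sum fun x c => c * f x := by
  let h : LipFree M o →+ ℝ :=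
    { toFun := fun v => pair v f
      map_zero' := P090H22.pair_zero_left f
      map_add' := fun u v => P090H22.pair_add_left u v f }
  exact map_finsuppSum h a fun x c => c • del o x

theorem isLUB_norm (v : LipFree M o) :
    IsLUB {r : ℝ | ∃ f : Lip0 M o, (∀ x y : M, |f x - f y| ≤ dist x y) ∧ r = |pair v f|} ‖v‖ := by
  constructor
  · rintro _ ⟨f, hf, rfl⟩
    have h1 : ‖f‖ ≤ 1 := Lip0.norm_le _ zero_le_one fun x y => by rw [one_mul]; exact hf x y
    calc |pair v f| ≤ ‖v‖ * ‖f‖ := P090H22.pairing_le v f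
      _ ≤ ‖v‖ * 1 := mul_le_mul_of_nonneg_left h1 (norm_nonneg _)
      _ = ‖v‖ := mul_one _
  · intro B hB
    have hB0 : 0 ≤ B := by
      have := hB ⟨(0 : Lip0 M o), fun x y => by
        rw [Lip0.zero_apply, Lip0.zero_apply, sub_zero, abs_zero]; exact dist_nonneg, rfl⟩
      rwa [pair, map_zero, abs_zero] at this
    refine ContinuousLinearMap.opNorm_le_bound _ hB0 fun g => ?_
    rcases eq_or_ne g 0 with rfl | hg
    · simp
    · have hpos : 0 < ‖g‖ := norm_pos_iff.2 hg
      have h1 := hB ⟨‖g‖⁻¹ • g, fun x y => by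
        rw [Lip0.smul_apply, Lip0.smul_apply, ← mul_sub, abs_mul, abs_of_pos (inv_pos.2 hpos),
          inv_mul_le_iff₀ hpos]
        exact g.apply_sub_le x y, rfl⟩
      rw [pair, map_smul, smul_eq_mul, abs_mul, abs_of_pos (inv_pos.2 hpos),
        inv_mul_le_iff₀ hpos, mul_comm] at h1
      exact h1

theorem dense_span : Dense (Submodule.span ℝ (Set.range (del o)) : Set (LipFree M o)) := by
  intro v
  rw [Metric.mem_closure_iff]
  intro ε hε
  have hv : v.1 ∈ closure (Submodule.span ℝ (Set.range (evalAt o)) :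
      Set (Lip0 M o →L[ℝ] ℝ)) := v.2
  obtain ⟨w, hw, hvw⟩ := Metric.mem_closure_iff.1 hv ε hε
  have key : ∀ w ∈ Submodule.span ℝ (Set.range (evalAt (M := M) o)),
      ∃ u ∈ Submodule.span ℝ (Set.range (del (M := M) o)), u.1 = w := by
    intro w hw
    induction hw using Submodule.span_induction with
    | mem w hw =>
      obtain ⟨x, rfl⟩ := hw
      exact ⟨del o x, Submodule.subset_span ⟨x, rfl⟩, rfl⟩
    | zero => exact ⟨0, Submodule.zero_mem _, rfl⟩
    | add w w' _ _ h h' =>
      obtain ⟨u, hu, rfl⟩ := h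
      obtain ⟨u', hu', rfl⟩ := h'
      exact ⟨u + u', Submodule.add_mem _ hu hu', rfl⟩
    | smul c w _ h =>
      obtain ⟨u, hu, rfl⟩ := h
      exact ⟨c • u, Submodule.smul_mem _ c hu, rfl⟩
  obtain ⟨u, hu, rfl⟩ := key w hw
  exact ⟨u, hu, hvw⟩

theorem isLipschitzFree (M : Type) [MetricSpace M] (o : M) :
    IsLipschitzFree M o (LipFree M o) (del o) := by
  refine ⟨fun a => ?_, dense_span⟩
  have h := isLUB_norm (a.sum fun x c => c • del o x)
  have hset : {r : ℝ | ∃ f : M → ℝ, f o = 0 ∧ (∀ x y : M, |f x - f y| ≤ dist x y) ∧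
        r = |a.sum fun x c => c * f x|} =
      {r : ℝ | ∃ f : Lip0 M o, (∀ x y : M, |f x - f y| ≤ dist x y) ∧
        r = |pair (a.sum fun x c => c • del o x) f|} := by
    ext r
    constructor
    · rintro ⟨f, h0, hf, rfl⟩
      let g : Lip0 M o := ⟨f, h0, 1, fun x y => by rw [one_mul]; exact hf x y⟩
      exact ⟨g, hf, congrArg abs (pair_sum a g).symm⟩
    · rintro ⟨f, hf, rfl⟩
      refine ⟨f.1, f.base, hf, ?_⟩
      rw [pair_sum]
  rw [hset]
  exact h

theorem completeSpace (M : Type) [MetricSpace M] (o : M) : CompleteSpace (LipFree M o) := by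
  unfold LipFree lipFreeSubmodule
  exact (Submodule.isClosed_topologicalClosure _).completeSpace_coe

theorem not_BAP (o : P090H22.MM) : ¬ BAP (LipFree P090H22.MM o) := P090H22.not_BAP o

end Vale.Agent.P090Norm
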